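import Vale.Agent.P299.H760.Iface
import Vale.Agent.P272.K.V.Final
import Vale.Agent.P272.K.N.Det

/-!
# P299, D2-PATCH: the operator `opG`, local solvability
-/

open scoped Manifold ContDiff ComplexOrder Topology
open Vale.Agent.P272.K Vale.Agent.P299.D Filter Metric Set

set_option maxSynthPendingDepth 3

noncomputable section

namespace Vale.Agent.P299.H58

open Vale.Agent.P299.H760

variable {n : ℕ}

/-- the real linear map `a ↦ (B ↦ Re (a * lev B k j))` -/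
def coefR (j k : Fin n) : ℂ →L[ℝ] (B2 (Cm n) →L[ℝ] ℝ) :=
  LinearMap.toContinuousLinearMap
    { toFun := fun a => LinearMap.toContinuousLinearMap
        { toFun := fun B => (a * N.lev B k j).re
          map_add' := fun B C => by
            rw [N.lev_add, Matrix.add_apply, mul_add, Complex.add_re]
          map_smul' := fun c B => by
            rw [N.lev_smul, Matrix.smul_apply, smul_eq_mul, mul_left_comm, Complex.re_ofReal_mul,
              smul_eq_mul, RingHom.id_apply] }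
      map_add' := fun a b => by
        ext B
        simp [add_mul]
      map_smul' := fun c a => by
        ext B
        simp [mul_assoc] }

theorem coefR_apply (j k : Fin n) (a : ℂ) (B : B2 (Cm n)) :
    coefR j k a B = (a * N.lev B k j).re := rfl

theorem opG_eq (G : Matrix (Fin n) (Fin n) ℂ) : opG G = ∑ j, ∑ k, coefR j k (G⁻¹ j k) := by
  ext B
  rw [opG_apply]
  simp only [Matrix.trace, Matrix.diag_apply, Matrix.mul_apply, Complex.re_sum,
    _root_.sum_apply, coefR_apply]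

theorem opG_contDiffAt {g : Cm n → Matrix (Fin n) (Fin n) ℂ} {z : Cm n}
    (hg : ∀ p q, ContDiffAt ℝ ∞ (fun z => g z p q) z) (h0 : (g z).det ≠ 0) :
    ContDiffAt ℝ ∞ (fun z => opG (g z)) z := by
  have hi : ∀ j k, ContDiffAt ℝ ∞ (fun z => (g z)⁻¹ j k) z := fun j k =>
    contDiffAt_inv hg h0 j k
  have h1 : (fun z => opG (g z)) = fun z => ∑ j, ∑ k, coefR j k ((g z)⁻¹ j k) :=
    funext fun z => opG_eq _
  rw [h1]
  exact ContDiffAt.sum fun j _ => ContDiffAt.sum fun k _ =>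
    (coefR j k).contDiff.contDiffAt.comp z (hi j k)

theorem opG_pos {G : Matrix (Fin n) (Fin n) ℂ} (hG : G.PosDef) {ξ : Cm n →L[ℝ] ℝ} (hξ : ξ ≠ 0) :
    0 < opG G (ξ.smulRight ξ) := by
  rw [opG_apply]
  exact N.trace_inv_lev_pos hG hξ

theorem ellOn_opG {g : Cm n → Matrix (Fin n) (Fin n) ℂ} {U : Set (Cm n)} (hU : IsOpen U)
    (hg : ∀ z ∈ U, ∀ p q, ContDiffAt ℝ ∞ (fun z => g z p q) z) (hp : ∀ z ∈ U, (g z).PosDef) :
    EllOn (fun z => opG (g z)) U where
  isOpen := hU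
  smooth z hz := opG_contDiffAt (hg z hz) (hp z hz).det_pos.ne'
  pos z hz _ hξ := opG_pos (hp z hz) hξ

/-- local solvability of `l v - Δ v = f` -/
theorem exists_solve {g : Cm n → Matrix (Fin n) (Fin n) ℂ} {U : Set (Cm n)} (hU : IsOpen U)
    (hg : ∀ z ∈ U, ∀ p q, ContDiffAt ℝ ∞ (fun z => g z p q) z) (hp : ∀ z ∈ U, (g z).PosDef)
    {x₀ : Cm n} (hx₀ : x₀ ∈ U) :
    ∃ r : ℝ, 0 < r ∧ closedBall x₀ r ⊆ U ∧ ∃ C l₀ : ℝ, 0 ≤ C ∧ 1 ≤ l₀ ∧ ∀ l : ℝ, l₀ ≤ l →
      ∀ (f : Cm n → ℝ) (A B : ℝ), 0 ≤ B → LIN.HB (1 / 2 : ℝ) f A B →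
      ∃ v : Cm n → ℝ, ContDiff ℝ 2 v ∧
        (∀ z ∈ closedBall x₀ r, l * v z - Lop (fun y => opG (g y)) v z = f z) ∧
        LIN.ResBd (1 / 2 : ℝ) l C (l ^ ((1 / 2 : ℝ) / 2) * A + B) v := by
  have ha := opG_contDiffAt (hg x₀ hx₀) (hp x₀ hx₀).det_pos.ne'
  obtain ⟨K, t, ht, hK⟩ := (ha.of_le (m := 1) (by norm_cast)).exists_lipschitzOnWith
  obtain ⟨R, hR, hRsub⟩ := Metric.nhds_basis_ball.mem_iff.1 (inter_mem ht (hU.mem_nhds hx₀))
  set R' : ℝ := min R (1 / 2) with hR'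
  have hR'0 : 0 < R' := lt_min hR (by norm_num)
  have hsub : ball x₀ R' ⊆ t ∩ U := (ball_subset_ball (min_le_left _ _)).trans hRsub
  have hsmall : ∀ x ∈ ball x₀ R', ∀ y ∈ ball x₀ R', ‖x - y‖ ≤ ‖x - y‖ ^ (1 / 2 : ℝ) := by
    intro x hx y hy
    have h1 : ‖x - y‖ ≤ 1 := by
      have h2 : dist x y ≤ dist x x₀ + dist y x₀ := dist_triangle_right _ _ _
      rw [dist_eq_norm] at h2
      have h3 : dist x x₀ < 1 / 2 := (mem_ball.1 hx).trans_le (min_le_right _ _)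
      have h4 : dist y x₀ < 1 / 2 := (mem_ball.1 hy).trans_le (min_le_right _ _)
      linarith
    have h0 := norm_nonneg (x - y)
    rw [← Real.sqrt_eq_rpow]
    exact Real.le_sqrt_of_sq_le (by nlinarith)
  obtain ⟨r, hr, hrs, C, hC, l₀, hl₀, hsol⟩ := V.local_resolvent' (α := 1 / 2) (by norm_num)
    (by norm_num) (U := ball x₀ R') isOpen_ball (mem_ball_self hR'0) (fun y => opG (g y))
    (fun _ => 0) ⟨K, fun x hx y hy => by
      refine (hK.norm_sub_le (hsub hx).1 (hsub hy).1).trans ?_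
      exact mul_le_mul_of_nonneg_left (hsmall x hx y hy) K.2⟩
    ⟨0, fun x _ y _ => by simp⟩ (fun ξ hξ => opG_pos (hp x₀ hx₀) hξ)
  refine ⟨r, hr, hrs.trans fun z hz => (hsub hz).2, C, l₀, hC, hl₀, fun l hl f A B hB hf => ?_⟩
  obtain ⟨v, hv, heq, hbd⟩ := hsol l hl f A B hB hf
  refine ⟨v, hv, fun z hz => ?_, hbd⟩
  have := heq z hz
  rw [_root_.zero_apply, sub_zero] at this
  exact this

end Vale.Agent.P299.H58
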