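import Vale.Agent.P299.H58.Op
import Vale.Agent.P299.H956.D1.Imm
import Vale.Agent.P299.H996.D6.Descent
import Vale.Agent.P272.K.INT.Part
import Mathlib.Topology.Covering.Basic

/-!
# P299, D2-PATCH: existence of a patch system
-/

open scoped Manifold ContDiff ComplexOrder Topology
open Vale.Agent.P272.K Vale.Agent.P278.H837 Vale.Agent.P299.D Filter Metric Set
open Vale.Agent.P299.H956 (isHermitian_pullM immersive_of_localDiffeo isForm_pullM pullM_comp
  pullM_eq rep_hol nhds_at_map)
open Vale.Agent.P299.H760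

set_option maxSynthPendingDepth 3
set_option linter.unusedSectionVars false

noncomputable section

namespace Vale.Agent.P299.H58

variable {n : ℕ} {X : Type} [TopologicalSpace X] [ChartedSpace (Cm n) X]
  [IsManifold 𝓘(ℂ, Cm n) ω X] {w : FormM n X}

section deck

variable (S : Split n X w)

/-- a deck transformation with a fixed point is trivial -/
theorem deck_eq_one {γ : Deck S.π} {m : S.M} (h : (γ : S.M ≃ₜ S.M) m = m) : γ = 1 := by
  have h1 : ((γ : S.M ≃ₜ S.M) : S.M → S.M) = id := by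
    refine S.cov.eq_of_comp_eq (γ : S.M ≃ₜ S.M).continuous continuous_id ?_ m h
    funext m'
    exact γ.2 m'
  refine Subtype.ext (Homeomorph.ext fun m' => ?_)
  exact congrFun h1 m'

theorem isHermitian_cov (hw : IsKahler w) : IsHermitian (pullM S.π w : FormM n S.M) :=
  isHermitian_pullM hw.toIsHermitian S.loc.contMDiff (immersive_of_localDiffeo S.loc)

/-- deck transformations are isometries -/
theorem deck_iso (hw : IsKahler w) (γ : Deck S.π) {e e' : Chart n S.M} {m : S.M} (h : At e m)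
    (h' : At e' ((γ : S.M ≃ₜ S.M) m)) : pullM S.π w e (e m) =
      (jmat (fun z => e' ((γ : S.M ≃ₜ S.M) (e.symm z))) (e m)).transpose *
        pullM S.π w e' (e' ((γ : S.M ≃ₜ S.M) m)) *
        (jmat (fun z => e' ((γ : S.M ≃ₜ S.M) (e.symm z))) (e m)).map (starRingEnd ℂ) := by
  have hγ := H996.deck_hol S.loc γ
  have h1 := pullM_comp hw.toIsHermitian.isForm hγ S.loc.contMDiff h
  have h2 : (fun y => S.π ((γ : S.M ≃ₜ S.M) y)) = S.π := funext γ.2
  rw [h2] at h1
  rw [← h1, pullM_eq (isForm_pullM hw.toIsHermitian.isForm S.loc.contMDiff) hγ.contMDiffAt h h']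
  rfl

/-- a function on the base, in the charts of the covering -/
theorem smooth_comp_pi {u : X → ℝ} (hu : SmoothFn (n := n) u) {e : Chart n S.M} {m : S.M}
    (h : At e m) : ContDiffAt ℝ ∞ (fun z => u (S.π (e.symm z))) (e m) := by
  have hc : At (chartAt (Cm n) (S.π m)) (S.π m) := H956.at_chartAt (S.π m)
  have hπ : ContMDiffAt 𝓘(ℂ, Cm n) 𝓘(ℂ, Cm n) ω S.π m := S.loc.contMDiff.contMDiffAt
  have hτ := rep_hol hπ h hc
  have h1 : (fun z => u (S.π (e.symm z))) =ᶠ[𝓝 (e m)] fun z =>
      (fun z' => u ((chartAt (Cm n) (S.π m)).symm z'))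
        ((fun z => chartAt (Cm n) (S.π m) (S.π (e.symm z))) z) := by
    filter_upwards [nhds_at_map hπ.continuousAt h hc] with z hz
    show _ = u ((chartAt (Cm n) (S.π m)).symm (chartAt (Cm n) (S.π m) (S.π (e.symm z))))
    rw [hz.2.2.left_inv]
  refine ContDiffAt.congr_of_eventuallyEq ?_ h1
  refine ContDiffAt.comp (e m) (g := fun z' => u ((chartAt (Cm n) (S.π m)).symm z'))
    (f := fun z => chartAt (Cm n) (S.π m) (S.π (e.symm z))) ?_
    ((hτ.restrict_scalars ℝ).of_le (by exact le_top))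
  rw [h.left_inv]
  exact hu _ _ hc

end deck

/-- one patch -/
theorem exists_patch (S : Split n X w) (hw : IsKahler w) (x : X) :
    ∃ (e' e : Chart n S.M) (c : Cm n) (r : ℝ), e' ∈ atlas (Cm n) S.M ∧ e.source ⊆ e'.source ∧
      (∀ m, e m = e' m) ∧ (∀ z, e.symm z = e'.symm z) ∧ InjOn S.π e.source ∧ 0 < r ∧
      closedBall c (4 * r) ⊆ e.target ∧ (∃ m ∈ e.source, S.π m = x ∧ e m ∈ ball c r) ∧
      ∃ C l₀ : ℝ, 0 ≤ C ∧ 1 ≤ l₀ ∧ ∀ l : ℝ, l₀ ≤ l → ∀ (f : Cm n → ℝ) (A B : ℝ), 0 ≤ B →
        LIN.HB (1 / 2 : ℝ) f A B → ∃ v : Cm n → ℝ, ContDiff ℝ 2 v ∧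
          (∀ z ∈ closedBall c (2 * r),
            l * v z - Lop (fun y => opG (pullM S.π w e' y)) v z = f z) ∧
          LIN.ResBd (1 / 2 : ℝ) l C (l ^ ((1 / 2 : ℝ) / 2) * A + B) v := by
  obtain ⟨m, hm⟩ := S.surj x
  obtain ⟨p, hmp, hp⟩ := S.cov.isLocalHomeomorph m
  set e' : Chart n S.M := chartAt (Cm n) m with he'
  have hat : At e' m := H956.at_chartAt m
  set e : Chart n S.M := e'.restrOpen p.source p.open_source with he
  have hsrc : e.source = e'.source ∩ p.source := rfl
  have hme : m ∈ e.source := ⟨hat.2, hmp⟩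
  have hme' : e' m ∈ e.target := e.map_source hme
  have hH := isHermitian_cov S hw
  have hpt : ∀ z ∈ e.target, At e' (e'.symm z) ∧ e' (e'.symm z) = z := by
    intro z hz
    have h1 : e.symm z ∈ e.source := e.map_target hz
    have h2 : e'.symm z ∈ e'.source := h1.1
    have h3 : e (e.symm z) = z := e.right_inv hz
    exact ⟨⟨hat.1, h2⟩, h3⟩
  obtain ⟨r, hr, hrs, hsol⟩ := exists_solve (g := fun z => pullM S.π w e' z) (U := e.target)
    e.open_target
    (fun z hz p q => by
      obtain ⟨h1, h2⟩ := hpt z hz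
      have := hH.smooth e' _ h1 p q
      rwa [h2] at this)
    (fun z hz => by
      obtain ⟨h1, h2⟩ := hpt z hz
      have := hH.posDef e' _ h1
      rwa [h2] at this) hme'
  obtain ⟨C, l₀, hC, hl₀, hsol⟩ := hsol
  refine ⟨e', e, e' m, r / 4, hat.1, fun y hy => hy.1, fun _ => rfl, fun _ => rfl, ?_,
    by positivity, ?_, ⟨m, hme, hm, mem_ball_self (by positivity)⟩, C, l₀, hC, hl₀,
    fun l hl f A B hB hf => ?_⟩
  · intro y hy y' hy' hyy
    rw [hp] at hyy
    exact p.injOn hy.2 hy'.2 hyy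
  · rw [mul_div_cancel₀ _ (by norm_num : (4 : ℝ) ≠ 0)]
    exact hrs
  · obtain ⟨v, hv, heq, hbd⟩ := hsol l hl f A B hB hf
    exact ⟨v, hv, fun z hz => heq z (closedBall_subset_closedBall (by linarith) hz), hbd⟩

theorem patchStatement : PatchStatement := by
  intro n X _ _ _ _ _ _ w hw S
  have key := exists_patch S hw
  choose e' e c r hatlas hsrc heq hsymm hinj hr hball hpt C l₀ hC hl₀ hsol using key
  have hopen : IsOpenMap S.π := S.cov.isLocalHomeomorph.isOpenMap
  set V : X → Set X := fun x => S.π '' ((e x).source ∩ e x ⁻¹' ball (c x) (r x)) with hV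
  have hVo : ∀ x, IsOpen (V x) := fun x =>
    hopen _ ((e x).isOpen_inter_preimage isOpen_ball)
  have hxV : ∀ x, x ∈ V x := fun x => by
    obtain ⟨m, hm1, hm2, hm3⟩ := hpt x
    exact ⟨m, ⟨hm1, hm3⟩, hm2⟩
  obtain ⟨t, ht⟩ := isCompact_univ.elim_finite_subcover V hVo
    (fun x _ => mem_iUnion.2 ⟨x, hxV x⟩)
  let N := t.card
  let q : Fin N → X := fun i => (t.equivFin.symm i : X)
  have hcov : ∀ x : X, ∃ i : Fin N, x ∈ V (q i) := by
    intro x
    obtain ⟨y, hy⟩ := mem_iUnion.1 (ht (mem_univ x))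
    obtain ⟨hyt, hxy⟩ := mem_iUnion.1 hy
    exact ⟨t.equivFin ⟨y, hyt⟩, by simpa [q] using hxy⟩
  have hreal := INT.isManifold_real n X
  obtain ⟨f, hf⟩ := SmoothPartitionOfUnity.exists_isSubordinate 𝓘(ℝ, Cm n)
    isClosed_univ (fun i => V (q i)) (fun i => hVo _)
    (fun x _ => mem_iUnion.2 (hcov x))
  have hfs : ∀ i, SmoothFn (n := n) (f i) := fun i => INT.smoothFn_of_contMDiff (f i).contMDiff
  have hH := isHermitian_cov S hw
  -- the points of the targets
  have htgt : ∀ i, ∀ z ∈ (e (q i)).target, At (e' (q i)) ((e (q i)).symm z) ∧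
      e' (q i) ((e (q i)).symm z) = z := by
    intro i z hz
    refine ⟨⟨hatlas _, hsrc _ ((e (q i)).map_target hz)⟩, ?_⟩
    rw [← heq]
    exact (e (q i)).right_inv hz
  have hcov' : ∀ i m, S.π m ∈ V (q i) → ∃ γ : Deck S.π, (γ : S.M ≃ₜ S.M) m ∈ (e (q i)).source ∧
      e (q i) ((γ : S.M ≃ₜ S.M) m) ∈ ball (c (q i)) (r (q i)) := by
    rintro i m ⟨m', ⟨h1, h2⟩, h3⟩
    obtain ⟨γ, hγ⟩ := (S.gal m m').1 h3.symm
    refine ⟨γ, ?_, ?_⟩
    · rw [hγ]; exact h1
    · rw [hγ]; exact h2
  let P : PS n S.M (Deck S.π) :=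
    { ac := fun γ => (γ : S.M ≃ₜ S.M)
      ac_one := fun m => rfl
      ac_mul := fun γ δ m => rfl
      N := N
      e := fun i => e (q i)
      c := fun i => c (q i)
      r := fun i => r (q i)
      r_pos := fun i => hr _
      ball_sub := fun i => hball _
      cover := fun m => by
        obtain ⟨i, hi⟩ := hcov (S.π m)
        obtain ⟨γ, h1, h2⟩ := hcov' i m hi
        exact ⟨i, γ, h1, h2⟩
      sep := fun i γ m hm hγm => by
        have h1 : (γ : S.M ≃ₜ S.M) m = m := hinj (q i) hγm hm (γ.2 m)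
        exact deck_eq_one S h1
      g := fun i => pullM S.π w (e' (q i))
      g_smooth := fun i z hz p p' => by
        obtain ⟨h1, h2⟩ := htgt i z hz
        have := hH.smooth (e' (q i)) _ h1 p p'
        rwa [h2] at this
      g_pos := fun i z hz => by
        obtain ⟨h1, h2⟩ := htgt i z hz
        have := hH.posDef (e' (q i)) _ h1
        rwa [h2] at this
      tr_hol := fun i j γ m hm hγm => by
        have h1 : At (e' (q i)) m := ⟨hatlas _, hsrc _ hm⟩
        have h2 : At (e' (q j)) ((γ : S.M ≃ₜ S.M) m) := ⟨hatlas _, hsrc _ hγm⟩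
        have h3 := rep_hol (H996.deck_hol S.loc γ).contMDiffAt h1 h2
        have h4 : (fun z => e (q j) ((γ : S.M ≃ₜ S.M) ((e (q i)).symm z))) =
            fun z => e' (q j) ((γ : S.M ≃ₜ S.M) ((e' (q i)).symm z)) := by
          funext z; rw [heq, hsymm]
        rw [h4, heq]
        exact h3
      tr_iso := fun i j γ m hm hγm => by
        have h1 : At (e' (q i)) m := ⟨hatlas _, hsrc _ hm⟩
        have h2 : At (e' (q j)) ((γ : S.M ≃ₜ S.M) m) := ⟨hatlas _, hsrc _ hγm⟩
        have h3 := deck_iso S hw γ h1 h2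
        have h4 : (fun z => e (q j) ((γ : S.M ≃ₜ S.M) ((e (q i)).symm z))) =
            fun z => e' (q j) ((γ : S.M ≃ₜ S.M) ((e' (q i)).symm z)) := by
          funext z; rw [heq, hsymm]
        rw [h4, heq, heq]
        exact h3
      ρ := fun i m => f i (S.π m)
      ρ_inv := fun i γ m => congrArg (f i) (γ.2 m)
      ρ_nonneg := fun i m => f.nonneg i _
      ρ_sum := fun m => by
        have := f.sum_eq_one (mem_univ (S.π m))
        rwa [finsum_eq_sum_of_fintype] at this
      ρ_smooth := fun i j z hz => by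
        obtain ⟨h1, h2⟩ := htgt j z hz
        have h3 := smooth_comp_pi S (hfs i) h1
        rw [h2] at h3
        have h4 : (fun z => f i (S.π ((e (q j)).symm z))) =
            fun z => f i (S.π ((e' (q j)).symm z)) := by
          funext z; rw [hsymm]
        rw [h4]
        exact h3
      ρ_supp := fun i m => by
        by_cases hm : S.π m ∈ tsupport (f i)
        · left
          obtain ⟨γ, h1, h2⟩ := hcov' i m (hf i hm)
          refine ⟨γ, h1, ball_subset_ball ?_ h2⟩
          have := hr (q i)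
          linarith
        · right
          have h1 : ∀ᶠ x in 𝓝 (S.π m), f i x = 0 := by
            filter_upwards [(isClosed_tsupport (f i)).isOpen_compl.mem_nhds hm] with x hx
            exact image_eq_zero_of_notMem_tsupport hx
          exact S.cov.continuous.continuousAt.eventually h1
      solve := fun i => ⟨C (q i), l₀ (q i), hC _, hl₀ _, hsol (q i)⟩ }
  refine ⟨P, ⟨fun γ m => rfl, fun i => ⟨e' (q i), hatlas _, hsrc _, heq _, hsymm _, fun z _ => rfl⟩⟩⟩

end Vale.Agent.P299.H58
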